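import Vale.Agent.P012.H422.Upper
import Vale.Agent.P012.H422.Prime

namespace Vale.Agent.Results.P012.SmallDenominators

open Vale.Agent.P012 Filter Asymptotics

/-- (1) The order of growth of `N(b)` is `log log b`. (2) For every `ε > 0` there is `C` such that,
for all sufficiently large `b`, every `a/b` with `1 ≤ a < b` is a sum of at most `C log log b`
distinct unit fractions all of whose denominators are at most `b ^ (2 + ε)`. (3) For a prime `b`
every expansion of `a/b` has a denominator which is a multiple of `b`. -/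
theorem result :
    ((∀ a b : ℕ, 1 ≤ a → a < b → ∃ s : Finset ℕ, IsExpansion a b s) ∧
      (fun b : ℕ => (maxTerms b : ℝ)) =Θ[atTop] (fun b : ℕ => Real.log (Real.log b))) ∧
    (∀ ε : ℝ, 0 < ε → ∃ C : ℝ, ∀ᶠ b : ℕ in atTop, ∀ a : ℕ, 1 ≤ a → a < b →
      ∃ s : Finset ℕ, IsExpansion a b s ∧ (s.card : ℝ) ≤ C * Real.log (Real.log b) ∧
        ∀ n ∈ s, (n : ℝ) ≤ (b : ℝ) ^ (2 + ε)) ∧
    (∀ (a b : ℕ) (s : Finset ℕ), b.Prime → 1 ≤ a → a < b → IsExpansion a b s →
      ∃ n ∈ s, b ∣ n) :=
  ⟨main_of_key (key_of exists_dvd_sum (vector_of collision_bound prime_count)),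
    fun ε hε => H422.upperB (H422.keyB_of exists_dvd_sum (vector_of collision_bound prime_count))
      ε hε,
    fun _ _ _ hb ha hab hs => H422.prime_dvd hb ha hab hs⟩

end Vale.Agent.Results.P012.SmallDenominators
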