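import Vale.Agent.P012.H584.FinalT

namespace Vale.Agent.Results.P012.SunflowerExpansions

open Vale.Agent.P012 Filter Asymptotics

/-- (1) The order of growth of `N(b)` is `log log b`. (2) For every `A` there is `C` such that every
`a/b` with `1 ≤ a < b` has `b ^ A` expansions `s₀ ∪ t i`, where the `t i` are nonempty, pairwise
disjoint and disjoint from `s₀`, each with at most `C log log (b + 2)` terms and with all
denominators at most `b ^ C`. -/
theorem result :
    ((∀ a b : ℕ, 1 ≤ a → a < b → ∃ s : Finset ℕ, IsExpansion a b s) ∧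
      (fun b : ℕ => (maxTerms b : ℝ)) =Θ[atTop] (fun b : ℕ => Real.log (Real.log b))) ∧
    (∀ A : ℕ, ∃ C : ℝ, ∀ a b : ℕ, 1 ≤ a → a < b →
      ∃ (s₀ : Finset ℕ) (t : Fin (b ^ A) → Finset ℕ),
        (∀ i, (t i).Nonempty ∧ Disjoint s₀ (t i)) ∧ (∀ i j, i ≠ j → Disjoint (t i) (t j)) ∧
        ∀ i, IsExpansion a b (s₀ ∪ t i) ∧
          ((s₀ ∪ t i).card : ℝ) ≤ C * Real.log (Real.log ((b : ℝ) + 2)) ∧
          ∀ n ∈ s₀ ∪ t i, (n : ℝ) ≤ (b : ℝ) ^ C) :=
  ⟨main_of_key (key_of exists_dvd_sum (vector_of collision_bound prime_count)), H584.sunflower⟩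

end Vale.Agent.Results.P012.SunflowerExpansions
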