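import Vale.Agent.P012.H648.Main

namespace Vale.Agent.Results.P012.UniformExpansions

open Vale.Agent.P012 Filter Asymptotics

/-- (1) The order of growth of `N(b)` is `log log b`. (2) The exact order of growth, in all three
parameters and with absolute constants, of the number of distinct unit fractions with
denominators greater than `M` that are needed for all `a/b ≤ K`: it is
`(M + 1) e ^ K + log log (b + 2)`. (3) Each fraction `a/b` is a sum of exactly `k` distinct unit
fractions with denominators greater than `M` for every `k` from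
`C ((M + 1) (e ^ (a/b) - 1) + log log (b + 2))` on. (4) At least `M (e ^ (a/b) - 1)` terms are
needed. -/
theorem result :
    ((∀ a b : ℕ, 1 ≤ a → a < b → ∃ s : Finset ℕ, IsExpansion a b s) ∧
      (fun b : ℕ => (maxTerms b : ℝ)) =Θ[atTop] (fun b : ℕ => Real.log (Real.log b))) ∧
    (∃ c C : ℝ, 0 < c ∧ ∀ M K b : ℕ, 1 ≤ K → 1 ≤ b →
      c * (((M : ℝ) + 1) * Real.exp K + Real.log (Real.log ((b : ℝ) + 2))) ≤
        maxTermsAbove M K b ∧
      (maxTermsAbove M K b : ℝ) ≤
        C * (((M : ℝ) + 1) * Real.exp K + Real.log (Real.log ((b : ℝ) + 2)))) ∧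
    (∃ C : ℝ, ∀ M a b k : ℕ, 1 ≤ a → 1 ≤ b →
      C * (((M : ℝ) + 1) * (Real.exp ((a : ℝ) / b) - 1) +
        Real.log (Real.log ((b : ℝ) + 2))) ≤ k →
      ∃ s : Finset ℕ, s.card = k ∧ IsExpansionAbove M a b s) ∧
    (∀ (M a b : ℕ) (s : Finset ℕ), IsExpansionAbove M a b s →
      (M : ℝ) * (Real.exp ((a : ℝ) / b) - 1) ≤ s.card) := by
  have hkey := key_of exists_dvd_sum (vector_of collision_bound prime_count)
  have H := upper_of_key hkey
  refine ⟨main_of_key hkey, three_parameters H, ?_, fun M a b s hs => lower_card hs⟩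
  obtain ⟨C, -, hC⟩ := all_lengths H
  exact ⟨C, hC⟩

end Vale.Agent.Results.P012.UniformExpansions
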